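import Crest.Agent.N250.Wr.Geo
import Crest.Agent.N250.Cj.Ch
import Crest.Agent.N250.Gc.Area
import Crest.Agent.N250.Wt.Cx

/-!
# Row 250 (helper59): real valued complex functions on the slice as functions on spacetime
-/

set_option autoImplicit false
open MeasureTheory Set Filter Topology
open scoped ContDiff InnerProductSpace
open Crest.GeometryTopology.MCF

noncomputable section

namespace Crest.Agent.N250.Rm

open Wr Gc

variable {S : Mv} (P : Prm S)

/-- the real part as a time independent function on spacetime -/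
def rf (f : P.geo.SmC) : ST → ℝ := S.lift 0 (P.geo.re f).1

/-- a real smooth function as a time independent function on spacetime -/
def lf (u : P.geo.R) : ST → ℝ := S.lift 0 u.1

/-- the real part of a complex map -/
def rX (Y : Fin 3 → P.geo.SmC) (q : ST) : E := WithLp.toLp 2 fun c => rf P (Y c) q

/-- real valued -/
def Re (f : P.geo.SmC) : Prop := ∀ p, (f.1 p).im = 0

variable {P} {f g : P.geo.SmC} {Y : Fin 3 → P.geo.SmC} {u : P.geo.R}

theorem sm_lf (u : P.geo.R) : S.Sm (lf P u) := P.shr.reg.sm_lift 0 P.shr.st u.2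

theorem lf_apply (u : P.geo.R) (p : S.sl 0) (t : ℝ) : lf P u (p, t) = u.1 p :=
  Mv.lift_apply (p := ((p : E), t)) _ p.2

theorem lf_st (u : P.geo.R) (x : E) (t : ℝ) : lf P u (x, t) = lf P u (x, 0) := rfl

theorem lf_eq (u : P.geo.R) : u = mkR P.shr.reg (lf P u) (sm_lf u) :=
  mkR_ext _ _ fun p => (lf_apply u p 0).symm

theorem D_lf (u : P.geo.R) (a : Fin 3) (p : S.sl 0) (t : ℝ) :
    S.D a (lf P u) (p, t) = (P.geo.S.D a u).1 p := by
  rw [P.shr.st.D_eq (lf_st u)]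
  conv_rhs => rw [lf_eq u, P.geo_S, mv_D]
  rfl

theorem sm_rf (f : P.geo.SmC) : S.Sm (rf P f) := sm_lf _

theorem rf_apply (f : P.geo.SmC) (p : S.sl 0) (t : ℝ) : rf P f (p, t) = (f.1 p).re :=
  lf_apply (P.geo.re f) p t



theorem D_rf (f : P.geo.SmC) (a : Fin 3) (p : S.sl 0) (t : ℝ) :
    S.D a (rf P f) (p, t) = ((P.geo.SC.D a f).1 p).re := by
  rw [rf, ← lf, D_lf, ← WS.Geo.re_D]; rfl

theorem mem_sl (P : Prm S) {q : ST} (hq : q ∈ S.M) : q.1 ∈ S.sl 0 :=
  (P.shr.st.mem q.1 q.2).1 hq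

theorem D_rf' (f : P.geo.SmC) (a : Fin 3) {q : ST} (hq : q ∈ S.M) :
    S.D a (rf P f) q = rf P (P.geo.SC.D a f) q :=
  (D_rf f a ⟨q.1, mem_sl P hq⟩ q.2).trans (rf_apply _ ⟨q.1, mem_sl P hq⟩ q.2).symm

theorem DD_rf (f : P.geo.SmC) (a b : Fin 3) (p : S.sl 0) (t : ℝ) :
    S.D a (S.D b (rf P f)) (p, t) = ((P.geo.SC.D a (P.geo.SC.D b f)).1 p).re := by
  rw [Mv.D_congr' ((P.shr.st.mem _ t).2 p.2) fun q hq => D_rf' f b hq, D_rf]

theorem Re.eq (h : Re P f) (p : S.sl 0) (t : ℝ) : f.1 p = (rf P f (p, t) : ℝ) := by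
  rw [rf_apply]; exact Complex.ext rfl (h p)

theorem re_oR (u : P.geo.R) : Re P (P.geo.oR u) := fun _ => Complex.ofReal_im _

theorem Re.im (h : Re P f) : P.geo.im f = 0 := Subtype.ext (funext h)

theorem Re.D (h : Re P f) (a : Fin 3) : Re P (P.geo.SC.D a f) := fun p => by
  have : P.geo.im (P.geo.SC.D a f) = 0 := by
    rw [WS.Geo.im_D, h.im]; exact P.geo.ds.D_zero a
  exact congrFun (congrArg Subtype.val this) p

theorem Re.add (h : Re P f) (k : Re P g) : Re P (f + g) := fun p => by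
  change (f.1 p + g.1 p).im = 0; simp [h p, k p]

theorem Re.sub (h : Re P f) (k : Re P g) : Re P (f - g) := fun p => by
  change (f.1 p - g.1 p).im = 0; simp [h p, k p]

theorem Re.mul (h : Re P f) (k : Re P g) : Re P (f * g) := fun p => by
  change (f.1 p * g.1 p).im = 0; simp [h p, k p]

theorem Re.smul (h : Re P f) {c : ℂ} (hc : c.im = 0) : Re P (c • f) := fun p => by
  change (c * f.1 p).im = 0; simp [h p, hc]

theorem Re.sum {κ : Type} (s : Finset κ) {F : κ → P.geo.SmC} (h : ∀ i, Re P (F i)) :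
    Re P (∑ i ∈ s, F i) := by
  classical
  induction s using Finset.induction_on with
  | empty => exact fun _ => rfl
  | insert a s ha ih => rw [Finset.sum_insert ha]; exact (h a).add ih

theorem Re.D_eq (h : Re P f) (a : Fin 3) (p : S.sl 0) (t : ℝ) :
    (P.geo.SC.D a f).1 p = (S.D a (rf P f) (p, t) : ℝ) := by
  rw [D_rf]; exact Complex.ext rfl (h.D a p)

theorem Re.DD_eq (h : Re P f) (a b : Fin 3) (p : S.sl 0) (t : ℝ) :
    (P.geo.SC.D a (P.geo.SC.D b f)).1 p = (S.D a (S.D b (rf P f)) (p, t) : ℝ) := by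
  rw [DD_rf]; exact Complex.ext rfl ((h.D b).D a p)


theorem rX_apply (Y : Fin 3 → P.geo.SmC) (p : S.sl 0) (t : ℝ) (c : Fin 3) :
    rX P Y (p, t) c = ((Y c).1 p).re := rf_apply _ p t

theorem sm_rX (Y : Fin 3 → P.geo.SmC) : S.Sm (rX P Y) := Mv.sm_of_cp fun c => sm_rf (Y c)

theorem rX_st (Y : Fin 3 → P.geo.SmC) (x : E) (t : ℝ) : rX P Y (x, t) = rX P Y (x, 0) := rfl

section

variable (h : ∀ c, Re P (Y c)) (p : S.sl 0) (t : ℝ)
include h

theorem val_eq : Cj.val Y p = fun c => ((rX P Y (p, t) c : ℝ) : ℂ) :=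
  funext fun c => (h c).eq p t

theorem JC_eq : Cj.JC Y p = fun a c => ((S.JX (rX P Y) (p, t) a c : ℝ) : ℂ) :=
  funext₂ fun a c => (h c).D_eq a p t

theorem KC_eq : Cj.KC Y p = fun a b c => ((S.KX (rX P Y) (p, t) a b c : ℝ) : ℂ) :=
  funext₃ fun a b c => (h c).DD_eq a b p t

omit h in
theorem nC_eq : Cj.nC P.geo p = fun a => ((S.nu a (p, t) : ℝ) : ℂ) := funext fun a => by
  rw [Mv.nu, P.shr.st.n_eq]; rfl

theorem NX_eq (c : Fin 3) : (P.geo.SC.NX Y c).1 p = (S.NX (rX P Y) (p, t) c : ℝ) := by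
  rw [Cj.NX_val, nC_eq p t, JC_eq h p t]
  exact (map_Nv Complex.ofRealHom _ _ c).symm

theorem GX_eq : (P.geo.SC.GX Y).1 p = (S.sX (rX P Y) (p, t) ^ 2 : ℝ) := by
  rw [Cj.GX_val, nC_eq p t, JC_eq h p t, Mv.sX_sq]
  exact (map_G2 Complex.ofRealHom _ _).symm

theorem WX_eq (a c : Fin 3) : (P.geo.SC.WX Y a c).1 p = (S.WX (rX P Y) (p, t) a c : ℝ) := by
  rw [Cj.WX_val, JC_eq h p t]
  exact (map_Wv Complex.ofRealHom _ a c).symm

theorem HX_eq : (P.geo.SC.HX Y).1 p = (S.HX (rX P Y) (p, t) : ℝ) := by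
  rw [Cj.HX_val, nC_eq p t, JC_eq h p t, KC_eq h p t]
  exact (map_HP Complex.ofRealHom _ _ _).symm

theorem ELX_eq : (P.geo.SC.ELX Y).1 p = (S.ELX (rX P Y) (p, t) : ℝ) := by
  rw [Cj.ELX_val, nC_eq p t, val_eq h p t, JC_eq h p t, KC_eq h p t]
  exact (map_EL Complex.ofRealHom _ _ _ _).symm

theorem sqrt_GX : ((P.geo.SC.GX Y).1 p) ^ (1 / 2 : ℂ) = (S.sX (rX P Y) (p, t) : ℝ) := by
  rw [GX_eq h p t, show (1 / 2 : ℂ) = ((1 / 2 : ℝ) : ℂ) by push_cast; ring,
    ← Complex.ofReal_cpow (sq_nonneg _), ← Real.sqrt_eq_rpow, Real.sqrt_sq (Mv.sX_nonneg _)]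

theorem dot_self : (dot Y Y).1 p = (‖rX P Y (p, t)‖ ^ 2 : ℝ) := by
  rw [Cj.dot_val, val_eq h p t, ← real_inner_self_eq_norm_sq, inner_eq_dot]
  exact (map_dot Complex.ofRealHom _ _).symm

theorem exp_eq : Complex.exp (-(dot Y Y).1 p / 4) =
    (4 * Real.pi * gau 0 1 (rX P Y (p, t)) : ℝ) := by
  have := Real.pi_pos
  rw [dot_self h p t, gau, mul_one, mul_one, sub_zero, mul_inv_cancel_left₀ (by positivity)]
  push_cast; rfl

end

/-- integrals of real valued functions -/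
theorem integral_eq {F : S.sl 0 → ℂ} {g : E → ℝ} (h : ∀ p, F p = g p) :
    ∫ p, F p ∂P.geo.M.mu = (∫ x, g x ∂S.mu 0 : ℝ) := by
  rw [← P.shr.reg.imm_integral 0 g, ← integral_complex_ofReal]
  exact integral_congr_ae (.of_forall h)

theorem integrable_iff {F : S.sl 0 → ℂ} {g : E → ℝ} (h : ∀ p, F p = g p) :
    Integrable F P.geo.M.mu ↔ Integrable g (S.mu 0) := by
  rw [← P.shr.reg.imm_integrable 0 g, show F = fun p : S.sl 0 => ((g p : ℝ) : ℂ) from funext h]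
  exact ⟨fun k => k.re, fun k => k.ofReal⟩

end Crest.Agent.N250.Rm

end
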