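import Crest.Agent.N250.R0.Stm
import Crest.Agent.N250.Fm.Defs
import Crest.Agent.N250.HJ.Main
import Crest.Agent.N250.Rm.Br
import Crest.Agent.N250.Nq.Defs
import Crest.Agent.N250.Lp.Lin
import Crest.Agent.N250.B1.Sm4
import Crest.Agent.N250.Wt.Grn

-- ▼ part N250/Rm/Abs
section

/-!
# Row 250 (helper50): real solutions of the glued problem give `RealM`
-/

set_option autoImplicit false
open MeasureTheory Set Filter Topology
open scoped ContDiff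
open Crest.GeometryTopology.MCF

noncomputable section

namespace Crest.Agent.N250.Rm

open Fm R0
open Crest.Agent.N250.B2 (aa ofR)

variable {S : Mv} {e : Ends S}

theorem sol_mono {d : Fm.Dat e} {n : ℕ} {f : Fin n → E → ℝ} {a b X X₀ : ℝ} {ζ c : Fin n → ℝ}
    {A : ℝ} (h : d.Sol f a b X ζ c A) (hX : X₀ ≤ X) : d.Sol f a b X₀ ζ c A where
  sm := h.sm
  st := h.st
  smv j := (h.smv j).mono fun _ hq => ⟨hq.1, hq.2.trans_le hX⟩
  per := h.per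
  elv j q h1 h2 := h.elv j q h1 (h2.trans_le hX)
  mt := h.mt
  el := h.el
  pair := h.pair
  act := by
    refine le_trans ?_ h.act
    gcongr with j
    exact fun q hq => ⟨⟨hq.1.1, hq.1.2.trans_le hX⟩, hq.2⟩

theorem j2_mono {g : ℝ × ℝ → ℝ} {ε ε' : ℝ} {q : ℝ × ℝ} (h : J2le g ε q) (hε : ε ≤ ε') :
    J2le g ε' q :=
  ⟨h.h0.trans hε, h.h1.trans hε, h.h2.trans hε, h.h11.trans hε, h.h12.trans hε, h.h22.trans hε⟩

theorem small_mono {d : Fm.Dat e} {a b L L' ε ε' : ℝ} (h : d.Small a b L ε) (hL : L' ≤ L)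
    (hε : ε ≤ ε') : d.Small a b L' ε' where
  c0 p h1 h2 := (h.c0 p h1 h2).trans (mul_le_mul_of_nonneg_right hε (by positivity))
  c1 p h1 h2 i c := (h.c1 p h1 h2 i c).trans hε
  c2 p h1 h2 i k c := (h.c2 p h1 h2 i k c).trans hε
  rot j y := (h.rot j y).trans (mul_le_mul_of_nonneg_right hε (norm_nonneg _))
  en j q h1 h2 := j2_mono (h.en j q h1 (h2.trans_le hL)) hε

theorem out_pre {n : ℕ} {f : Fin n → E → ℝ} {ρ₀ X₀ : ℝ} {ζ c : Fin n → ℝ} {A : ℝ} {G : Mv}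
    (h : Fm.Out S f ρ₀ X₀ ζ c A G) {τ : ℝ} (hτ : 0 ≤ τ) : Pre S f ρ₀ ζ τ G (X₀ / 2) c where
  reg := h.reg
  st := h.st
  proper := h.proper
  reach := h.reach
  pair i := by rw [h.pair i]; simpa using hτ
  el x hx h1 := by rw [h.el x hx h1]; simpa using hτ

variable {ι κ : Type} [Fintype ι] [Fintype κ]

/-- the real points used by `RealM` -/
def Pt (δ X : ℝ) (x : ι ⊕ κ → ℝ) : Prop := δ⁻¹ < X ∧ ‖x‖ < δ ∧ ‖aa x‖ * X ^ 2 ≤ 1

theorem Pt.mono {δ δ' X : ℝ} {x : ι ⊕ κ → ℝ} (h : Pt δ X x) (h0 : 0 < δ) (h1 : δ ≤ δ') :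
    Pt δ' X x :=
  ⟨(inv_anti₀ h0 h1).trans_lt h.1, h.2.1.trans_le h1, h.2.2⟩

/-- the real points of the glued family are real solutions `d X x` with multipliers `c X x` -/
structure RealD (e : Ends S) {n : ℕ} (f : Fin n → E → ℝ) (σ : Fin n ≃ ι ⊕ κ)
    (FF : ℂ × (ι ⊕ κ → ℂ) → ℂ) (Z cc : ℂ × (ι ⊕ κ → ℂ) → ι ⊕ κ → ℂ) (a b : ℝ)
    (d : ℝ → (ι ⊕ κ → ℝ) → Fm.Dat e) (c : ℝ → (ι ⊕ κ → ℝ) → Fin n → ℝ) : Prop where
  Ra : e.R + 1 ≤ a
  ab : a < b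
  cont : ∀ i, Continuous (f i)
  supp : ∀ i, tsupport (f i) ⊆ Metric.ball 0 a
  sol : ∃ δ C c0 : ℝ, 0 < δ ∧ 0 < c0 ∧ ∀ (X : ℝ) (x : ι ⊕ κ → ℝ), Pt δ X x →
    (d X x).Sol f a b X (fun i => (Z (X, ofR x) (σ i)).re) (c X x)
      ((FF (X, ofR x)).re / (4 * Real.pi) + C * Real.exp (-c0 * X ^ 2)) ∧
    ‖cc (X, ofR x)‖ ≤ C * ‖c X x‖
  small : ∀ t : ℝ, 0 < t → ∃ θ δ : ℝ, 0 < θ ∧ 0 < δ ∧ ∀ (X : ℝ) (x : ι ⊕ κ → ℝ), Pt δ X x →
    (d X x).Small a b (θ * X) t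

theorem sol_le {d : Fm.Dat e} {n : ℕ} {f : Fin n → E → ℝ} {a b X : ℝ} {ζ c : Fin n → ℝ}
    {A A' : ℝ} (h : d.Sol f a b X ζ c A) (hA : A ≤ A') : d.Sol f a b X ζ c A' :=
  ⟨h.sm, h.st, h.smv, h.per, h.elv, h.mt, h.el, h.pair, h.act.trans (ENNReal.ofReal_le_ofReal hA)⟩

theorem realM_abs (hS : SolS) (hs : S.IsShr) {n : ℕ} {f : Fin n → E → ℝ} {σ : Fin n ≃ ι ⊕ κ}
    {FF : ℂ × (ι ⊕ κ → ℂ) → ℂ} {Z cc : ℂ × (ι ⊕ κ → ℂ) → ι ⊕ κ → ℂ} {a b : ℝ}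
    {d : ℝ → (ι ⊕ κ → ℝ) → Fm.Dat e} {c : ℝ → (ι ⊕ κ → ℝ) → Fin n → ℝ}
    (h : RealD e f σ FF Z cc a b d c) : RealM S f σ FF Z cc := by
  obtain ⟨ε₀, ρ₀, ε0, ρ0, H⟩ := hS S e hs a b h.Ra h.ab
  obtain ⟨δ1, C, c0, δ10, c00, h1⟩ := h.sol
  obtain ⟨θ, δ2, θ0, δ20, h2⟩ := h.small ε₀ ε0
  have m0 : 0 < min θ 1 := lt_min θ0 one_pos
  refine ⟨min θ 1 / 2, ρ₀, |C| + 1, c0, by positivity, ρ0, by positivity, c00, fun ε hε => ?_⟩
  obtain ⟨ε₁, L, ε10, H1⟩ := H ε hε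
  obtain ⟨θ', δ3, θ'0, δ30, h3⟩ := h.small ε₁ ε10
  set μ := min (min θ 1) θ' with hμ
  have μ0 : 0 < μ := lt_min m0 θ'0
  set δ4 := μ / (|L| + 1) with hδ4
  have δ40 : 0 < δ4 := by positivity
  set δ := min (min δ1 δ2) (min δ3 δ4) with hδ
  have δ0 : 0 < δ := lt_min (lt_min δ10 δ20) (lt_min δ30 δ40)
  refine ⟨δ, δ0, fun X hX x hx ha τ hτ => ?_⟩
  have P : Pt δ X x := ⟨hX, hx, ha⟩
  have X0 : 0 < X := (inv_pos.2 δ0).trans hX
  have hL : L ≤ μ * X := by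
    have := (P.mono δ0 ((min_le_right _ _).trans (min_le_right _ _))).1
    rw [hδ4, inv_div, div_lt_iff₀ μ0] at this
    linarith [le_abs_self L]
  obtain ⟨s1, s2⟩ := h1 X x (P.mono δ0 ((min_le_left _ _).trans (min_le_left _ _)))
  have s3 := h2 X x (P.mono δ0 ((min_le_left _ _).trans (min_le_right _ _)))
  have s4 := h3 X x (P.mono δ0 ((min_le_right _ _).trans (min_le_left _ _)))
  have hC : C ≤ |C| + 1 := by linarith [le_abs_self C]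
  obtain ⟨G, hG, hN⟩ := H1 n f (d X x) (min θ 1 * X) _ _ _ h.cont h.supp
    (hL.trans (mul_le_mul_of_nonneg_right (min_le_left _ _) X0.le))
    (sol_mono s1 (mul_le_of_le_one_left X0.le (min_le_right _ _)))
    (small_mono s3 (mul_le_mul_of_nonneg_right (min_le_left _ _) X0.le) le_rfl)
    (small_mono s4 (hL.trans (mul_le_mul_of_nonneg_right (min_le_right _ _) X0.le)) le_rfl)
  have e1 : min θ 1 / 2 * X = min θ 1 * X / 2 := by ring
  refine ⟨G, c X x, e1 ▸ out_pre hG hτ.le, hN,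
    s2.trans (mul_le_mul_of_nonneg_right hC (norm_nonneg _)), ?_⟩
  rw [e1]
  refine hG.en.trans (ENNReal.ofReal_le_ofReal ?_)
  gcongr

/-- the far term is exponentially small -/
theorem norm_S_le {N : ℕ} {X : ℝ} {V : ℂ} (hX : 1 ≤ X) (h : HJ.Adm N X V) :
    ‖HJ.S N X V‖ ≤ 700 * Real.exp (-X ^ 2 / 4) := by
  have x0 : 0 < X := by linarith
  have h1 : ‖HJ.EE X V‖ ≤ Real.exp (-X ^ 2 / 4) := by
    rw [HJ.EE, Complex.norm_exp]
    refine Real.exp_le_exp.2 ?_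
    have : (-(X : ℂ) ^ 2 / 4 - V / 2).re = -X ^ 2 / 4 - V.re / 2 := by
      simp [sq]
    rw [this]; linarith [h.hV]
  have h2 : ‖HJ.rr V‖ ≤ 3 := by
    rw [HJ.norm_rr]
    exact Real.sqrt_le_iff.2 ⟨by norm_num, by linarith [h.hV']⟩
  have h3 := HJ.norm_eN_le h.hw
  have h4 : ‖V / (X : ℂ) ^ 2‖ ≤ 4 := by
    rw [norm_div, norm_pow, Complex.norm_real, Real.norm_eq_abs, abs_of_pos x0]
    exact (div_le_self (norm_nonneg _) (one_le_pow₀ hX)).trans h.hV'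
  have hw : ‖HJ.ww X V‖ ≤ 1 / 7 := h.hw.trans (one_div_le_one_div_of_le (by norm_num)
    (by linarith [Nat.cast_nonneg (α := ℝ) N]))
  have h5 : ‖1 - HJ.eN N (HJ.ww X V) - V / (X : ℂ) ^ 2‖ ≤ 109 := by
    have := norm_sub_le (1 - HJ.eN N (HJ.ww X V)) (V / (X : ℂ) ^ 2)
    have := norm_sub_le 1 (HJ.eN N (HJ.ww X V))
    rw [norm_one] at this
    linarith
  rw [HJ.S, norm_mul, norm_div, norm_mul, norm_mul, norm_neg, Complex.norm_two, Complex.norm_real,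
    Real.norm_eq_abs, abs_of_pos x0]
  calc 2 * ‖HJ.EE X V‖ * ‖HJ.rr V‖ / X * ‖1 - HJ.eN N (HJ.ww X V) - V / (X : ℂ) ^ 2‖
      ≤ 2 * Real.exp (-X ^ 2 / 4) * 3 / 1 * 109 := by gcongr
    _ ≤ _ := by linarith [Real.exp_pos (-X ^ 2 / 4)]

end Crest.Agent.N250.Rm

end
end

-- ▼ part N250/Rm/Sm

/-!
# Row 250 (helper50): `C²` size of the real data
-/

set_option autoImplicit false
open MeasureTheory Set Filter Topology
open scoped ContDiff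
open Crest.GeometryTopology.MCF

noncomputable section

namespace Crest.Agent.N250.Rm

open WS Nq

section Geo

variable {X : Type} [TopologicalSpace X] [MeasurableSpace X] {G : Geo X}

/-- weighted 2-jet bound at a point -/
structure Bd (f : G.SmC) (C : ℝ) (p : X) : Prop where
  h0 : ‖f.1 p‖ ≤ C
  h1 : ∀ a, G.ρ.1 p * ‖(G.SC.D a f).1 p‖ ≤ C
  h2 : ∀ a b, G.ρ.1 p * ‖(G.SC.D a (G.SC.D b f)).1 p‖ ≤ C

variable {f g : G.SmC} {C C' : ℝ} {p : X}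

theorem Bd.mono (h : Bd f C p) (k : C ≤ C') : Bd f C' p :=
  ⟨h.h0.trans k, fun a => (h.h1 a).trans k, fun a b => (h.h2 a b).trans k⟩

theorem rho_nn (G : Geo X) (p : X) : 0 ≤ G.ρ.1 p := zero_le_one.trans (G.one_le p)

theorem Bd.add (h : Bd f C p) (k : Bd g C' p) : Bd (f + g) (C + C') p := by
  refine ⟨(norm_add_le _ _).trans (add_le_add h.h0 k.h0), fun a => ?_, fun a b => ?_⟩
  · rw [G.dsC.add]
    refine (mul_le_mul_of_nonneg_left (norm_add_le _ _) (rho_nn G p)).trans ?_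
    rw [mul_add]; exact add_le_add (h.h1 a) (k.h1 a)
  · rw [G.dsC.add, G.dsC.add]
    refine (mul_le_mul_of_nonneg_left (norm_add_le _ _) (rho_nn G p)).trans ?_
    rw [mul_add]; exact add_le_add (h.h2 a b) (k.h2 a b)

theorem Bd.smul (h : Bd f C p) {c : ℂ} {t : ℝ} (hc : ‖c‖ ≤ t) : Bd (c • f) (t * C) p := by
  have t0 := (norm_nonneg c).trans hc
  have key : ∀ (z : ℂ) (r : ℝ), 0 ≤ r → r * ‖z‖ ≤ C → r * ‖c * z‖ ≤ t * C := fun z r hr hz => by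
    rw [norm_mul, mul_left_comm]
    exact mul_le_mul hc hz (by positivity) t0
  refine ⟨?_, fun a => ?_, fun a b => ?_⟩
  · simpa using key (f.1 p) 1 zero_le_one (by simpa using h.h0)
  · rw [G.D_smul]; exact key _ _ (rho_nn G p) (h.h1 a)
  · rw [G.D_smul, G.D_smul]; exact key _ _ (rho_nn G p) (h.h2 a b)

theorem bd_zero (p : X) : Bd (0 : G.SmC) 0 p := by
  have z : ∀ a, G.SC.D a 0 = 0 := G.dsC.D_zero
  exact ⟨by simp, fun a => by simp [z], fun a b => by simp [z]⟩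

theorem Bd.sum {κ : Type} (s : Finset κ) {F : κ → G.SmC} {B : κ → ℝ} (h : ∀ i, Bd (F i) (B i) p) :
    Bd (∑ i ∈ s, F i) (∑ i ∈ s, B i) p := by
  classical
  induction s using Finset.induction_on with
  | empty => exact bd_zero p
  | insert a s ha ih => rw [Finset.sum_insert ha, Finset.sum_insert ha]; exact (h a).add ih

theorem bd_of_cpt (f : G.SmC) {K : Set X} (hK : IsCompact K) : ∃ C, 0 ≤ C ∧ ∀ p ∈ K, Bd f C p := by
  have c : ∀ g : G.SmC, Continuous fun p => G.ρ.1 p * ‖g.1 p‖ := fun g =>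
    (G.contR _).mul (G.contC g).norm
  have n : ∀ (g : G.SmC) p, 0 ≤ G.ρ.1 p * ‖g.1 p‖ := fun g p =>
    mul_nonneg (rho_nn G p) (norm_nonneg _)
  obtain ⟨C, hC⟩ := hK.exists_bound_of_continuousOn (f := fun p => ‖f.1 p‖ +
    ∑ a, G.ρ.1 p * ‖(G.SC.D a f).1 p‖ + ∑ a, ∑ b, G.ρ.1 p * ‖(G.SC.D a (G.SC.D b f)).1 p‖)
    (((G.contC f).norm.add (continuous_finsetSum _ fun a _ => c _)).add
      (continuous_finsetSum _ fun a _ => continuous_finsetSum _ fun b _ => c _)).continuousOn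
  refine ⟨|C|, abs_nonneg _, fun p hp => ?_⟩
  have h := (le_abs_self _).trans ((hC p hp).trans (le_abs_self C))
  have s1 : 0 ≤ ∑ a, G.ρ.1 p * ‖(G.SC.D a f).1 p‖ := Finset.sum_nonneg fun a _ => n _ p
  have s2 : 0 ≤ ∑ a, ∑ b, G.ρ.1 p * ‖(G.SC.D a (G.SC.D b f)).1 p‖ :=
    Finset.sum_nonneg fun a _ => Finset.sum_nonneg fun b _ => n _ p
  refine ⟨by linarith, fun a => ?_, fun a b => ?_⟩
  · have := Finset.single_le_sum (f := fun a => G.ρ.1 p * ‖(G.SC.D a f).1 p‖)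
      (fun a _ => n _ p) (Finset.mem_univ a)
    linarith [norm_nonneg (f.1 p)]
  · have := Finset.single_le_sum (f := fun b => G.ρ.1 p * ‖(G.SC.D a (G.SC.D b f)).1 p‖)
      (fun a _ => n _ p) (Finset.mem_univ b)
    have := Finset.single_le_sum (f := fun a => ∑ b, G.ρ.1 p * ‖(G.SC.D a (G.SC.D b f)).1 p‖)
      (fun a _ => Finset.sum_nonneg fun b _ => n _ p) (Finset.mem_univ a)
    linarith [norm_nonneg (f.1 p)]

theorem bd_of_ev (h : f.1 =ᶠ[𝓝 p] (0 : G.SmC).1) : Bd f 0 p := by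
  have z := bd_zero (G := G) p
  exact ⟨h.self_of_nhds ▸ z.h0, fun a => (Lp.D_ev h a).self_of_nhds ▸ z.h1 a,
    fun a b => (Lp.D_ev (Lp.D_ev h b) a).self_of_nhds ▸ z.h2 a b⟩

theorem bd_cut {χ : G.R} (hc : HasCompactSupport (G.ζ * χ).1) (w : G.R) :
    ∃ C, 0 ≤ C ∧ ∀ p, G.ζ.1 p = 1 → Bd (G.oR (χ * w)) C p := by
  obtain ⟨C, C0, h⟩ := bd_of_cpt (G.oR (χ * w)) hc
  refine ⟨C, C0, fun p hp => ?_⟩
  by_cases hK : p ∈ tsupport (G.ζ * χ).1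
  · exact h p hK
  · refine (bd_of_ev ?_).mono C0
    filter_upwards [notMem_tsupport_iff_eventuallyEq.1 hK,
      (G.contR G.ζ).continuousAt.eventually_ne (show G.ζ.1 p ≠ 0 by rw [hp]; exact one_ne_zero)]
      with q h1 h2
    have h3 : χ.1 q = 0 := (mul_eq_zero.1 h1).resolve_left h2
    change ((χ.1 q * w.1 q : ℝ) : ℂ) = 0
    rw [h3, zero_mul, Complex.ofReal_zero]

theorem bd_sy {w : G.R} (h : G.Sy 0 w) : ∃ C, 0 ≤ C ∧ ∀ p, Bd (G.oR w) C p := by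
  choose B hB using h
  have k : ∀ (l : List (Fin 3)) p, l ≠ [] →
      G.ρ.1 p * ‖(G.SC.Dw l (G.oR w)).1 p‖ ≤ |B l| := fun l p hl => by
    have r1 := G.one_le p
    rw [G.Dw_oR, G.oR_apply, Complex.norm_real, Real.norm_eq_abs]
    have h1 : G.ρ.1 p ^ ((0 : ℤ) - l.length) ≤ G.ρ.1 p ^ (-1 : ℤ) :=
      zpow_le_zpow_right₀ r1 (by have := List.length_pos_iff.2 hl; omega)
    have h2 := (hB l p).trans ((mul_le_mul_of_nonneg_right (le_abs_self _) (by positivity)).trans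
      (mul_le_mul_of_nonneg_left h1 (abs_nonneg _)))
    rw [zpow_neg_one, ← div_eq_mul_inv, le_div_iff₀ (by linarith)] at h2
    linarith
  have s1 : 0 ≤ ∑ a, |B [a]| := Finset.sum_nonneg fun a _ => abs_nonneg _
  have s2 : 0 ≤ ∑ a, ∑ b, |B [a, b]| :=
    Finset.sum_nonneg fun a _ => Finset.sum_nonneg fun b _ => abs_nonneg _
  refine ⟨|B []| + ∑ a, |B [a]| + ∑ a, ∑ b, |B [a, b]|, by positivity, fun p => ⟨?_, fun a => ?_,
    fun a b => ?_⟩⟩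
  · have := hB [] p
    simp only [List.length_nil, Nat.cast_zero, sub_self, zpow_zero, mul_one] at this
    rw [G.oR_apply, Complex.norm_real, Real.norm_eq_abs]
    exact this.trans (by linarith [le_abs_self (B [])])
  · have := Finset.single_le_sum (f := fun a => |B [a]|) (fun a _ => abs_nonneg _)
      (Finset.mem_univ a)
    exact (k [a] p (by simp)).trans (by linarith [abs_nonneg (B [])])
  · have := Finset.single_le_sum (f := fun b => |B [a, b]|) (fun a _ => abs_nonneg _)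
      (Finset.mem_univ b)
    have := Finset.single_le_sum (f := fun a => ∑ b, |B [a, b]|)
      (fun a _ => Finset.sum_nonneg fun b _ => abs_nonneg _) (Finset.mem_univ a)
    exact (k [a, b] p (by simp)).trans (by linarith [abs_nonneg (B [])])

variable {J κ : Type} [Fintype J] [Fintype κ] {D : Dt G J κ}

omit [Fintype κ] in
theorem bd_mv (hD : D.Good) (w : Fin 3 → G.R) : ∃ C, 0 ≤ C ∧ ∀ (T : Mt J) p c, G.ζ.1 p = 1 →
    Bd (D.mv T w c) (‖T‖ * C) p := by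
  choose B B0 hB using fun j d => bd_cut (hD.cχ j) (w d)
  refine ⟨∑ j, ∑ d, B j d, Finset.sum_nonneg fun j _ => Finset.sum_nonneg fun d _ => B0 j d,
    fun T p c hp => ?_⟩
  simp only [Finset.mul_sum]
  exact Bd.sum _ fun j => Bd.sum _ fun d => (hB j d p hp).smul
    ((norm_le_pi_norm _ d).trans ((norm_le_pi_norm _ c).trans (norm_le_pi_norm T j)))

/-- `C²` size `t` at a point, linear growth allowed -/
structure Sz (f : G.SmC) (t : ℝ) (p : X) : Prop where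
  h0 : ‖f.1 p‖ ≤ t * G.ρ.1 p
  h1 : ∀ a, ‖(G.SC.D a f).1 p‖ ≤ t
  h2 : ∀ a b, ‖(G.SC.D a (G.SC.D b f)).1 p‖ ≤ t

theorem Bd.sz (h : Bd f C p) : Sz f C p := by
  have r := G.one_le p
  have c0 := (norm_nonneg _).trans h.h0
  exact ⟨h.h0.trans (le_mul_of_one_le_right c0 r),
    fun a => (le_mul_of_one_le_left (norm_nonneg _) r).trans (h.h1 a),
    fun a b => (le_mul_of_one_le_left (norm_nonneg _) r).trans (h.h2 a b)⟩

theorem Sz.mono {t t' : ℝ} (h : Sz f t p) (k : t ≤ t') : Sz f t' p :=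
  ⟨h.h0.trans (mul_le_mul_of_nonneg_right k (rho_nn G p)), fun a => (h.h1 a).trans k,
    fun a b => (h.h2 a b).trans k⟩

theorem Sz.add {t t' : ℝ} (h : Sz f t p) (k : Sz g t' p) : Sz (f + g) (t + t') p := by
  refine ⟨(norm_add_le _ _).trans ((add_le_add h.h0 k.h0).trans_eq (by ring)), fun a => ?_,
    fun a b => ?_⟩
  · rw [G.dsC.add]; exact (norm_add_le _ _).trans (add_le_add (h.h1 a) (k.h1 a))
  · rw [G.dsC.add, G.dsC.add]; exact (norm_add_le _ _).trans (add_le_add (h.h2 a b) (k.h2 a b))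

theorem Sz.mul {t : ℝ} (h : Sz f t p) (k : Bd g C p) : Sz (f * g) (4 * (t * C)) p := by
  have r := G.one_le p
  have c0 := (norm_nonneg _).trans k.h0
  have t0 := (norm_nonneg _).trans (h.h1 0)
  have tc := mul_nonneg t0 c0
  have m : ∀ u v : G.SmC, ‖(u * v).1 p‖ = ‖u.1 p‖ * ‖v.1 p‖ := fun u v => norm_mul _ _
  have ad : ∀ u v : G.SmC, ‖(u + v).1 p‖ ≤ ‖u.1 p‖ + ‖v.1 p‖ := fun u v => norm_add_le _ _
  have k0 : ∀ v : G.SmC, G.ρ.1 p * ‖v.1 p‖ ≤ C → ‖(f * v).1 p‖ ≤ t * C := fun v hv => by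
    rw [m]
    refine (mul_le_mul_of_nonneg_right h.h0 (norm_nonneg _)).trans ?_
    rw [mul_assoc]; exact mul_le_mul_of_nonneg_left hv t0
  have k1 : ∀ u v : G.SmC, ‖u.1 p‖ ≤ t → ‖v.1 p‖ ≤ C → ‖(u * v).1 p‖ ≤ t * C := fun u v hu hv => by
    rw [m]; exact mul_le_mul hu hv (norm_nonneg _) t0
  refine ⟨?_, fun a => ?_, fun a b => ?_⟩
  · rw [m]
    have := mul_le_mul h.h0 k.h0 (norm_nonneg _) (by positivity)
    nlinarith
  · rw [G.dsC.mul]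
    linarith [ad (f * G.SC.D a g) (G.SC.D a f * g), k0 _ (k.h1 a), k1 _ _ (h.h1 a) k.h0]
  · rw [G.dsC.mul, G.dsC.add, G.dsC.mul, G.dsC.mul]
    refine (ad _ _).trans ((add_le_add (ad _ _) (ad _ _)).trans ?_)
    linarith [k0 _ (k.h2 a b), k1 _ _ (h.h1 a) (k.sz.h1 b), k1 _ _ (h.h1 b) (k.sz.h1 a),
      k1 _ _ (h.h2 a b) k.h0]

omit [Fintype κ] in
/-- size of `M (x + u Z) - x` -/
theorem sz_Xh (hD : D.Good) : ∃ C, 0 < C ∧ ∀ (u : G.SmC) (T : Mt J) (t : ℝ) p, G.ζ.1 p = 1 →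
    t ≤ 1 → ‖T‖ ≤ t → Sz u t p → ∀ c, Sz (D.Xh u T c - G.SC.x c) (C * t) p := by
  obtain ⟨C1, a1, h1⟩ := bd_mv hD G.S.x
  obtain ⟨C2, a2, h2⟩ := bd_mv hD D.Z
  choose B B0 hB using fun c => bd_sy (hD.symZ c)
  have s0 : 0 ≤ ∑ c, B c := Finset.sum_nonneg fun c _ => B0 c
  refine ⟨C1 + 4 * (∑ c, B c + C2) + 1, by positivity, fun u T t p hp t1 hT hu c => ?_⟩
  have t0 := (norm_nonneg _).trans hT
  have e : D.Xh u T c - G.SC.x c = D.yy T c + u * D.VV T c := add_sub_cancel_left _ _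
  rw [e]
  have v : Bd (D.VV T c) (∑ c, B c + C2) p :=
    ((hB c p).add (h2 T p c hp)).mono (add_le_add
      (Finset.single_le_sum (f := B) (fun c _ => B0 c) (Finset.mem_univ c))
      (mul_le_of_le_one_left a2 (hT.trans t1)))
  refine ((h1 T p c hp).sz.add (hu.mul v)).mono ?_
  nlinarith [mul_le_mul_of_nonneg_right hT a1]

variable [BorelSpace X]

theorem val_le {σ : Scale G} {f : σ.AA} {s : G.R} {u : G.SmC} (e : σ.val f = G.oR s * u) (p : X) :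
    |s.1 p| * ‖u.1 p‖ ≤ ‖f‖ := by
  have h : ‖(σ.val f).1 p‖ ≤ ‖f‖ := Scale.norm_val_le f p
  have e1 : (σ.val f).1 p = (s.1 p : ℂ) * u.1 p := by rw [e]; rfl
  rwa [e1, norm_mul, Complex.norm_real, Real.norm_eq_abs] at h

theorem sz_of {σ : Scale G} {u : G.SmC} {f0 : σ.AA} {f1 : Fin 3 → σ.AA} {f2 : Fin 3 → Fin 3 → σ.AA}
    {t : ℝ} (hp : G.ζ.1 p = 1) (e0 : σ.val f0 = G.oR (G.ζ * G.ι) * u)
    (e1 : ∀ a, σ.val (f1 a) = G.oR G.ζ * G.SC.D a u)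
    (e2 : ∀ a b, σ.val (f2 a b) = G.oR (G.ζ * G.ρ) * G.SC.D a (G.SC.D b u))
    (h0 : ‖f0‖ ≤ t) (h1 : ∀ a, ‖f1 a‖ ≤ t) (h2 : ∀ a b, ‖f2 a b‖ ≤ t) : Sz u t p := by
  have r := G.one_le p
  refine ⟨?_, fun a => ?_, fun a b => ?_⟩
  · have h := (val_le e0 p).trans h0
    have e : G.ρ.1 p * G.ι.1 p = 1 := congrFun (congrArg Subtype.val G.ρι) p
    have e2 : (G.ζ * G.ι).1 p = (G.ρ.1 p)⁻¹ := by
      change G.ζ.1 p * G.ι.1 p = _
      rw [hp, one_mul]; exact eq_inv_of_mul_eq_one_right e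
    rwa [e2, abs_of_pos (by positivity), inv_mul_le_iff₀ (by positivity), mul_comm] at h
  · have h := (val_le (e1 a) p).trans (h1 a)
    rwa [hp, abs_one, one_mul] at h
  · have h := (val_le (e2 a b) p).trans (h2 a b)
    have e2 : (G.ζ * G.ρ).1 p = G.ρ.1 p := by
      change G.ζ.1 p * G.ρ.1 p = _
      rw [hp, one_mul]
    rw [e2, abs_of_pos (by positivity)] at h
    exact (le_mul_of_one_le_left (norm_nonneg _) r).trans h

theorem clm_bd {V W ι : Type} [Fintype ι] [NormedAddCommGroup V] [NormedSpace ℂ V]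
    [NormedAddCommGroup W] [NormedSpace ℂ W] (L : ι → V →L[ℂ] W) :
    ∃ C, 0 < C ∧ ∀ i v, ‖L i v‖ ≤ C * ‖v‖ :=
  ⟨‖L‖ + 1, by positivity, fun i v => ((L i).le_opNorm v).trans
    (mul_le_mul_of_nonneg_right (by linarith [norm_le_pi_norm L i]) (norm_nonneg _))⟩

/-- size of `w` from the norm of `ξ` -/
theorem sz_wG {σ : Scale G} {ψ : κ → G.R} (Je : σ.Jets ψ) : ∃ C, 0 < C ∧ ∀ ξ p, G.ζ.1 p = 1 →
    Sz (σ.wG ψ ξ) (C * ‖ξ‖) p := by
  obtain ⟨C0, a0, h0⟩ := clm_bd fun _ : Unit => Je.J0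
  obtain ⟨C1, a1, h1⟩ := clm_bd Je.J1
  obtain ⟨C2, a2, h2⟩ := clm_bd fun a : Fin 3 × Fin 3 => Je.J2 a.1 a.2
  refine ⟨C0 + C1 + C2, by positivity, fun ξ p hp => ?_⟩
  have n := norm_nonneg ξ
  exact sz_of hp (Je.val0 ξ) (fun a => Je.val1 a ξ) (fun a b => Je.val2 a b ξ)
    ((h0 () ξ).trans (mul_le_mul_of_nonneg_right (by linarith) n))
    (fun a => (h1 a ξ).trans (mul_le_mul_of_nonneg_right (by linarith) n))
    fun a b => (h2 (a, b) ξ).trans (mul_le_mul_of_nonneg_right (by linarith) n)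

end Geo

section Real

variable {S : Mv} {P : Wr.Prm S}

theorem zeta_core {b : ℝ} (hb : b < P.a') {q : ST} (hq : q ∈ S.M) (hc : q ∈ Fm.Core P.e b) :
    P.geo.ζ.1 ⟨q.1, mem_sl P hq⟩ = 1 :=
  Wr.zeta_one P.hab fun j =>
    (Wr.tube_or_off' P.shr.st P.ha' hb hq j).resolve_left (hc j)

variable {Y : Fin 3 → P.geo.SmC} {t : ℝ} {q : ST}

theorem rX_sub (hq : q ∈ S.M) (c : Fin 3) :
    (rX P Y q - q.1) c = rf P (Y c - P.geo.SC.x c) q := by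
  have h1 := rX_apply Y ⟨q.1, mem_sl P hq⟩ q.2 c
  have h2 := rf_apply (Y c - P.geo.SC.x c) ⟨q.1, mem_sl P hq⟩ q.2
  rw [PiLp.sub_apply, h1, h2]
  exact (Complex.sub_re _ ((q.1 c : ℝ) : ℂ)).symm

variable (hq : q ∈ S.M) (h : ∀ c, Sz (Y c - P.geo.SC.x c) t (⟨q.1, mem_sl P hq⟩ : S.sl 0))
include h

theorem core0 : ‖rX P Y q - q.1‖ ≤ 3 * t * (1 + ‖q.1‖) := by
  have t0 := (norm_nonneg _).trans ((h 0).h1 0)
  have r : P.geo.ρ.1 ⟨q.1, mem_sl P hq⟩ ≤ 1 + ‖q.1‖ :=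
    (Wr.rho_le_rho0 _ _).trans (Wr.rho0_le _)
  have k : ∀ c, |(rX P Y q - q.1) c| ≤ t * (1 + ‖q.1‖) := fun c => by
    rw [rX_sub hq, rf_apply _ ⟨q.1, mem_sl P hq⟩ q.2]
    exact (Complex.abs_re_le_norm _).trans ((h c).h0.trans (mul_le_mul_of_nonneg_left r t0))
  have b0 : 0 ≤ t * (1 + ‖q.1‖) := by positivity
  rw [EuclideanSpace.norm_eq]
  refine Real.sqrt_le_iff.2 ⟨by positivity, ?_⟩
  simp only [Fin.sum_univ_three, Real.norm_eq_abs]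
  nlinarith [pow_le_pow_left₀ (abs_nonneg _) (k 0) 2, pow_le_pow_left₀ (abs_nonneg _) (k 1) 2,
    pow_le_pow_left₀ (abs_nonneg _) (k 2) 2, sq_nonneg (t * (1 + ‖q.1‖))]

theorem core1 (i c : Fin 3) : |S.D i (fun y => (rX P Y y - y.1) c) q| ≤ t := by
  rw [Mv.D_congr' hq fun y hy => rX_sub hy c, D_rf _ i ⟨q.1, mem_sl P hq⟩ q.2]
  exact (Complex.abs_re_le_norm _).trans ((h c).h1 i)

theorem core2 (i k c : Fin 3) : |S.D i (S.D k fun y => (rX P Y y - y.1) c) q| ≤ t := by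
  rw [Mv.D_congr' hq fun y hy => Mv.D_congr' hy (fun y hy => rX_sub hy c) k,
    DD_rf _ i k ⟨q.1, mem_sl P hq⟩ q.2]
  exact (Complex.abs_re_le_norm _).trans ((h c).h2 i k)

end Real

section End

open B1 Po

/-- the jet of the end `j` of `S` in the order of `vj` -/
def jS {S : Mv} (e : Ends S) (j : Fin e.p) (q : ℝ × ℝ) (i : Fin 6) : ℂ :=
  (![Fm.vS e j q, d1 (Fm.vS e j) q, d1 (d1 (Fm.vS e j)) q, d2 (Fm.vS e j) q,
    d1 (d2 (Fm.vS e j)) q, d2 (d2 (Fm.vS e j)) q] i : ℝ)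




end End

end Crest.Agent.N250.Rm

end
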